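import Vale.Agent.P284.H213.KL.SK1
import Vale.Agent.P272.K.Inv.Compact
import Vale.Agent.P272.K.QN.H705.PullLoc

/-!
# P284 (helper573), upgrade K, module K9, part PSH

`psi N a t = N log (1 + Σ |t_k - a_k|²)`; the complex Hessian of `psi N a ∘ f`, `f` holomorphic; the
chain rule for the `(1,0)` derivative of `χ ∘ f`.
-/

open scoped Manifold ContDiff Topology ComplexOrder ENNReal ComplexConjugate InnerProductSpace
open Filter MeasureTheory

noncomputable section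

namespace Vale.Agent.P284.H573.K9

open Vale.Agent.P272.K Vale.Agent.P272.K.C2 Vale.Agent.P284.H213.KL
open Vale.Agent.P272.K.QN (jm jm_apply jm_mulVec diff_comp)

section quad
variable {n : ℕ}

lemma quad_subM (A B : Matrix (Fin n) (Fin n) ℂ) (ξ : Cm n) :
    quad (A - B) ξ = quad A ξ - quad B ξ := by
  unfold quad
  rw [← Finset.sum_sub_distrib]
  refine Finset.sum_congr rfl fun i _ => ?_
  rw [← Finset.sum_sub_distrib]
  refine Finset.sum_congr rfl fun j _ => ?_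
  rw [Matrix.sub_apply, sub_mul]

lemma quad_smulR (c : ℝ) (A : Matrix (Fin n) (Fin n) ℂ) (ξ : Cm n) :
    quad ((c : ℂ) • A) ξ = (c : ℂ) * quad A ξ := by
  unfold quad
  rw [Finset.mul_sum]
  refine Finset.sum_congr rfl fun i _ => ?_
  rw [Finset.mul_sum]
  refine Finset.sum_congr rfl fun j _ => ?_
  rw [Matrix.smul_apply, smul_eq_mul, mul_assoc]

lemma quad_cHess (f : Cm n → ℝ) (z β : Cm n) : (quad (cHess f z) β).re = lev f z β := by
  unfold quad lev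
  congr 1
  refine Finset.sum_congr rfl fun j _ => Finset.sum_congr rfl fun k _ => ?_
  rw [mul_assoc]

/-- the matrix `Σ_k u_k ⊗ conj u_k` -/
def rk {ι : Type*} [Fintype ι] (u : ι → Fin n → ℂ) : Matrix (Fin n) (Fin n) ℂ :=
  Matrix.of fun i j => ∑ k, u k i * conj (u k j)

lemma rk_herm {ι : Type*} [Fintype ι] (u : ι → Fin n → ℂ) : (rk u).IsHermitian := by
  ext i j
  rw [Matrix.conjTranspose_apply, rk, Matrix.of_apply, Matrix.of_apply, RCLike.star_def, map_sum]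
  refine Finset.sum_congr rfl fun k _ => ?_
  rw [map_mul, Complex.conj_conj, mul_comm]

lemma quad_rk {ι : Type*} [Fintype ι] (u : ι → Fin n → ℂ) (β : Cm n) :
    quad (rk u) β = ((∑ k, ‖∑ i, u k i * β i‖ ^ 2 : ℝ) : ℂ) := by
  have h1 : ∀ k, ((‖∑ i, u k i * β i‖ ^ 2 : ℝ) : ℂ) =
      ∑ i, ∑ j, u k i * conj (u k j) * (β i * conj (β j)) := by
    intro k
    rw [← Complex.normSq_eq_norm_sq, ← Complex.mul_conj, map_sum, Finset.sum_mul]
    refine Finset.sum_congr rfl fun i _ => ?_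
    rw [Finset.mul_sum]
    refine Finset.sum_congr rfl fun j _ => ?_
    rw [map_mul]
    ring
  rw [Complex.ofReal_sum]
  simp only [h1]
  rw [Finset.sum_comm]
  unfold quad rk
  refine Finset.sum_congr rfl fun i _ => ?_
  rw [Finset.sum_comm]
  refine Finset.sum_congr rfl fun j _ => ?_
  rw [Matrix.of_apply, Finset.sum_mul]

end quad

section
variable {n q : ℕ}

/-- the matrix `Σ_k ∂f_k ⊗ conj ∂f_k` -/
def JJ (f : Cm n → Cm q) (z : Cm n) : Matrix (Fin n) (Fin n) ℂ :=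
  Matrix.of fun i j => ∑ k, dz i (fun y => f y k) z * conj (dz j (fun y => f y k) z)

lemma JJ_eq (f : Cm n → Cm q) (z : Cm n) : JJ f z = rk fun k i => dz i (fun y => f y k) z := rfl

lemma JJ_herm (f : Cm n → Cm q) (z : Cm n) : (JJ f z).IsHermitian := rk_herm _

lemma quad_JJ {f : Cm n → Cm q} {z : Cm n} (hf : DifferentiableAt ℂ f z) (β : Cm n) :
    quad (JJ f z) β = ((∑ k, ‖fderiv ℂ f z β k‖ ^ 2 : ℝ) : ℂ) := by
  rw [JJ_eq, quad_rk]
  congr 1
  refine Finset.sum_congr rfl fun k _ => ?_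
  rw [jm_mulVec hf β k]
  rfl

lemma JJ_psd {f : Cm n → Cm q} {z : Cm n} (hf : DifferentiableAt ℂ f z) :
    (JJ f z).PosSemidef := by
  refine posSemidef_of_quad (JJ_herm f z) fun β => ?_
  rw [quad_JJ hf, Complex.ofReal_re]
  positivity

/-- chain rule for `χ ∘ f` -/
lemma dz_chain {χ : Cm q → ℝ} {f : Cm n → Cm q} {z : Cm n} (hχ : DifferentiableAt ℝ χ (f z))
    (hf : DifferentiableAt ℂ f z) (i : Fin n) :
    dz i (fun y => (χ (f y) : ℂ)) z =
      ∑ k, dz k (fun t => (χ t : ℂ)) (f z) * dz i (fun y => f y k) z :=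
  Vale.Agent.P272.K.QN.dz_comp_F (f := fun t => (χ t : ℂ)) (differentiableAt_ofReal hχ) hf

/-- Cauchy-Schwarz for the chain rule -/
theorem chain_psd {χ : Cm q → ℝ} {f : Cm n → Cm q} {z : Cm n} (hχ : DifferentiableAt ℝ χ (f z))
    (hf : DifferentiableAt ℂ f z) {C : ℝ} (hC : ∑ k, ‖dz k (fun t => (χ t : ℂ)) (f z)‖ ^ 2 ≤ C) :
    ((C : ℂ) • JJ f z - Matrix.of fun i j => dz i (fun y => (χ (f y) : ℂ)) z *
      conj (dz j (fun y => (χ (f y) : ℂ)) z)).PosSemidef := by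
  have e1 : (Matrix.of fun i j => dz i (fun y => (χ (f y) : ℂ)) z *
      conj (dz j (fun y => (χ (f y) : ℂ)) z)) =
      rk fun (_ : Unit) i => dz i (fun y => (χ (f y) : ℂ)) z := by
    ext i j
    simp [rk]
  rw [e1]
  refine posSemidef_of_quad (((JJ_herm f z).smul (by
    rw [isSelfAdjoint_iff, RCLike.star_def, Complex.conj_ofReal])).sub (rk_herm _)) fun β => ?_
  rw [quad_subM, quad_smulR, quad_JJ hf, quad_rk, ← Complex.ofReal_mul, ← Complex.ofReal_sub,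
    Complex.ofReal_re, sub_nonneg, Fintype.sum_unique]
  have h1 : ∑ i, dz i (fun y => (χ (f y) : ℂ)) z * β i =
      ∑ k, dz k (fun t => (χ t : ℂ)) (f z) * fderiv ℂ f z β k := by
    simp only [dz_chain hχ hf, Finset.sum_mul]
    rw [Finset.sum_comm]
    refine Finset.sum_congr rfl fun k _ => ?_
    rw [jm_mulVec hf β k, Finset.mul_sum]
    refine Finset.sum_congr rfl fun i _ => ?_
    rw [mul_assoc]
    rfl
  rw [h1]
  have h2 : ‖∑ k, dz k (fun t => (χ t : ℂ)) (f z) * fderiv ℂ f z β k‖ ≤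
      ∑ k, ‖dz k (fun t => (χ t : ℂ)) (f z)‖ * ‖fderiv ℂ f z β k‖ :=
    (norm_sum_le _ _).trans (Finset.sum_le_sum fun k _ => (norm_mul _ _).le)
  calc ‖∑ k, dz k (fun t => (χ t : ℂ)) (f z) * fderiv ℂ f z β k‖ ^ 2
      ≤ (∑ k, ‖dz k (fun t => (χ t : ℂ)) (f z)‖ * ‖fderiv ℂ f z β k‖) ^ 2 :=
        pow_le_pow_left₀ (norm_nonneg _) h2 2
    _ ≤ (∑ k, ‖dz k (fun t => (χ t : ℂ)) (f z)‖ ^ 2) * ∑ k, ‖fderiv ℂ f z β k‖ ^ 2 :=
        Finset.sum_mul_sq_le_sq_mul_sq _ _ _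
    _ ≤ C * ∑ k, ‖fderiv ℂ f z β k‖ ^ 2 :=
        mul_le_mul_of_nonneg_right hC (by positivity)

/-! ### the weight -/

/-- the weight `N log (1 + Σ |t_k - a_k|²)` -/
def psi (N : ℝ) (a : Cm q) (t : Cm q) : ℝ := N * Real.log (1 + ∑ k, ‖t k - a k‖ ^ 2)

lemma one_le_den (a t : Cm q) : 1 ≤ 1 + ∑ k, ‖t k - a k‖ ^ 2 := by
  have : 0 ≤ ∑ k, ‖t k - a k‖ ^ 2 := by positivity
  linarith

theorem psi_smooth (N : ℝ) (a : Cm q) : ContDiff ℝ ∞ (psi N a) := by
  refine contDiff_const.mul (ContDiff.log ?_ fun t => ?_)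
  · refine contDiff_const.add (ContDiff.sum fun k _ => ?_)
    exact (((contDiff_apply ℝ ℂ k).sub contDiff_const).norm_sq ℝ)
  · have := one_le_den a t
    positivity

lemma psi_exp (N : ℕ) (a t : Cm q) :
    Real.exp (-psi N a t) = ((1 + ∑ k, ‖t k - a k‖ ^ 2) ^ N)⁻¹ := by
  have := one_le_den a t
  unfold psi
  rw [Real.exp_neg, Real.exp_nat_mul, Real.exp_log (by positivity)]

/-- **the weight is plurisubharmonic** -/
theorem psi_psh {N : ℝ} (hN : 0 ≤ N) (a : Cm q) {f : Cm n → Cm q} {z : Cm n}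
    (hf : AnalyticAt ℂ f z) :
    (cHess (fun y => psi N a (f y)) z -
      ((N / (1 + ∑ k, ‖f z k - a k‖ ^ 2) ^ 2 : ℝ) : ℂ) • JJ f z).PosSemidef := by
  have hfR : ContDiffAt ℝ ∞ f z := (hf.contDiffAt (n := ∞)).restrict_scalars ℝ
  have hsm : ContDiffAt ℝ 2 (fun y => psi N a (f y)) z :=
    (((psi_smooth N a).contDiffAt).comp z hfR).of_le (by norm_cast)
  refine posSemidef_of_quad ((Vale.Agent.P272.K.cHess_isHermitian hsm).sub ((JJ_herm f z).smul (by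
    rw [isSelfAdjoint_iff, RCLike.star_def, Complex.conj_ofReal]))) fun β => ?_
  rw [quad_subM, quad_smulR, quad_JJ hf.differentiableAt, Complex.sub_re, quad_cHess,
    ← Complex.ofReal_mul, Complex.ofReal_re, sub_nonneg]
  -- the vector valued function
  set v : Cm n → EuclideanSpace ℂ (Fin q) := fun y => WithLp.toLp 2 (f y - a) with hv
  have hvan : AnalyticAt ℂ v z := by
    have h1 : AnalyticAt ℂ (fun y => f y - a) z := hf.sub analyticAt_const
    exact ((PiLp.continuousLinearEquiv 2 ℂ (fun _ : Fin q => ℂ)).symm.toContinuousLinearMap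
      |>.analyticAt _).comp h1
  have hnv : ∀ y, ‖v y‖ ^ 2 = ∑ k, ‖f y k - a k‖ ^ 2 := by
    intro y
    rw [EuclideanSpace.norm_sq_eq]
    rfl
  have hdv : ‖fderiv ℂ v z β‖ ^ 2 = ∑ k, ‖fderiv ℂ f z β k‖ ^ 2 := by
    have h1 : fderiv ℂ v z β = WithLp.toLp 2 (fderiv ℂ f z β) := by
      have h2 : HasFDerivAt (fun y => f y - a) (fderiv ℂ f z) z :=
        hf.differentiableAt.hasFDerivAt.sub_const a
      have h3 := ((PiLp.continuousLinearEquiv 2 ℂ (fun _ : Fin q => ℂ)).symm.toContinuousLinearMap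
        |>.hasFDerivAt (x := f z - a)).comp z h2
      have h4 : HasFDerivAt v _ z := h3
      rw [h4.fderiv]
      rfl
    rw [h1, EuclideanSpace.norm_sq_eq]
  have hu : (fun y => psi N a (f y)) = fun y => N * Real.log (1 + ‖v y‖ ^ 2) := by
    funext y
    rw [hnv]
    rfl
  have hns : ContDiffAt ℝ ∞ (fun y => ‖v y‖ ^ 2) z := contDiffAt_normSq hvan
  have hu2 : ContDiffAt ℝ 2 (fun y => 1 + ‖v y‖ ^ 2) z :=
    (contDiffAt_const.add hns).of_le (by norm_cast)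
  have hpos : 0 < 1 + ‖v z‖ ^ 2 := by positivity
  have h0 : lev (fun y => 1 + ‖v y‖ ^ 2) z β = ‖fderiv ℂ v z β‖ ^ 2 := by
    rw [lev_add contDiffAt_const (hns.of_le (by norm_cast)), lev_normSq hvan]
    have : lev (fun _ : Cm n => (1 : ℝ)) z β = 0 := by
      unfold lev
      rw [Vale.Agent.P272.K.C2.cHess_const]
      simp
    rw [this, zero_add]
  have h1 : dd (fun y => 1 + ‖v y‖ ^ 2) z β = ⟪v z, fderiv ℂ v z β⟫_ℂ := by
    rw [dd_add (differentiableAt_const _) (hns.differentiableAt (by norm_num)), dd_normSq hvan]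
    have : dd (fun _ : Cm n => (1 : ℝ)) z β = 0 := by
      unfold dd
      refine Finset.sum_eq_zero fun j _ => ?_
      simp [dz]
    rw [this, zero_add]
  rw [hu, lev_const_mul (hu2.log hpos.ne') N, lev_log hu2 hpos, h0, h1, ← hdv, ← hnv, div_mul_eq_mul_div,
    mul_div_assoc]
  refine mul_le_mul_of_nonneg_left ?_ hN
  have h2 : ‖⟪v z, fderiv ℂ v z β⟫_ℂ‖ ^ 2 ≤ ‖v z‖ ^ 2 * ‖fderiv ℂ v z β‖ ^ 2 := by
    rw [← mul_pow]
    exact pow_le_pow_left₀ (norm_nonneg _) (norm_inner_le_norm _ _) 2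
  have h3 : ((1 + ‖v z‖ ^ 2) ^ 2)⁻¹ * ‖⟪v z, fderiv ℂ v z β⟫_ℂ‖ ^ 2 ≤
      ((1 + ‖v z‖ ^ 2) ^ 2)⁻¹ * (‖v z‖ ^ 2 * ‖fderiv ℂ v z β‖ ^ 2) :=
    mul_le_mul_of_nonneg_left h2 (by positivity)
  have h4 : (1 + ‖v z‖ ^ 2)⁻¹ * ‖fderiv ℂ v z β‖ ^ 2 -
      ((1 + ‖v z‖ ^ 2) ^ 2)⁻¹ * (‖v z‖ ^ 2 * ‖fderiv ℂ v z β‖ ^ 2) =
      ‖fderiv ℂ v z β‖ ^ 2 / (1 + ‖v z‖ ^ 2) ^ 2 := by
    field_simp
    ring
  linarith

end

end Vale.Agent.P284.H573.K9
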