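import Vale.Agent.P284.H573.K9.Psh
import Vale.Agent.P284.H383.K9.A
import Mathlib.Analysis.SpecialFunctions.SmoothTransition

/-!
# P284 (helper573), upgrade K, module K9, part CUT

For injective periods the map `F : E → ℂ^q` is proper; cut-off functions of `F` show that the lifted
metric on `E` is complete.
-/

open scoped Manifold ContDiff Topology ComplexOrder ENNReal ComplexConjugate InnerProductSpace
open Filter MeasureTheory Set Metric

noncomputable section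

namespace Vale.Agent.P284.H573.K9

open Vale.Agent.P272.K Vale.Agent.P284.H894.G Vale.Agent.P284.H894.W Vale.Agent.P284.H494
  Vale.Agent.P284.H10 Vale.Agent.P284.H224 Vale.Agent.P284.H672 Vale.Agent.P284.H608.K
  Vale.Agent.P284.H383.K9

/-! ### the cut-off on the line -/

/-- `1` for `s ≤ 1`, `0` for `s ≥ 2` -/
def Th (s : ℝ) : ℝ := Real.smoothTransition (2 - s)

lemma Th_smooth : ContDiff ℝ ∞ Th :=
  Real.smoothTransition.contDiff.comp (contDiff_const.sub contDiff_id)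

lemma Th_one {s : ℝ} (h : s ≤ 1) : Th s = 1 :=
  Real.smoothTransition.one_of_one_le (by linarith)

lemma Th_zero {s : ℝ} (h : 2 ≤ s) : Th s = 0 :=
  Real.smoothTransition.zero_of_nonpos (by linarith)

lemma Th_nonneg (s : ℝ) : 0 ≤ Th s := Real.smoothTransition.nonneg _

lemma Th_le_one (s : ℝ) : Th s ≤ 1 := Real.smoothTransition.le_one _

lemma Th_deriv_zero {s : ℝ} (h : 2 < s) : deriv Th s = 0 := by
  have h1 : Th =ᶠ[𝓝 s] fun _ => (0 : ℝ) := by
    filter_upwards [lt_mem_nhds h] with x hx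
    exact Th_zero hx.le
  rw [h1.deriv_eq]
  simp

lemma Th_deriv_zero' {s : ℝ} (h : s < 1) : deriv Th s = 0 := by
  have h1 : Th =ᶠ[𝓝 s] fun _ => (1 : ℝ) := by
    filter_upwards [gt_mem_nhds h] with x hx
    exact Th_one hx.le
  rw [h1.deriv_eq]
  simp

lemma Th_deriv_bd : ∃ D : ℝ, 0 ≤ D ∧ ∀ s, |deriv Th s| ≤ D := by
  have hc : Continuous (deriv Th) := Th_smooth.continuous_deriv (by norm_cast)
  obtain ⟨D, hD⟩ := (isCompact_Icc (a := (1 : ℝ)) (b := 2)).exists_bound_of_continuousOn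
    hc.continuousOn
  refine ⟨max D 0, le_max_right _ _, fun s => ?_⟩
  rcases lt_or_ge s 1 with h1 | h1
  · rw [Th_deriv_zero' h1, abs_zero]
    exact le_max_right _ _
  · rcases lt_or_ge 2 s with h2 | h2
    · rw [Th_deriv_zero h2, abs_zero]
      exact le_max_right _ _
    · exact (hD s ⟨h1, h2⟩).trans (le_max_left _ _)

/-! ### the cut-off on `ℂ^q` -/

section
variable {q : ℕ}

lemma dz_nsq (t : Cm q) (k : Fin q) :
    dz k (fun y : Cm q => ((∑ i, ‖y i‖ ^ 2 : ℝ) : ℂ)) t = conj (t k) := by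
  have h1 : ∀ i : Fin q, HasFDerivAt (fun y : Cm q => ‖y i‖ ^ 2)
      (2 • (innerSL ℝ (t i)).comp (ContinuousLinearMap.proj i)) t := fun i =>
    (hasFDerivAt_apply (𝕜 := ℝ) i t).norm_sq
  have hr : HasFDerivAt (fun y : Cm q => ∑ i, ‖y i‖ ^ 2)
      (∑ i, 2 • (innerSL ℝ (t i)).comp (ContinuousLinearMap.proj i)) t :=
    HasFDerivAt.fun_sum fun i _ => h1 i
  have hc : HasFDerivAt (fun y : Cm q => ((∑ i, ‖y i‖ ^ 2 : ℝ) : ℂ))
      (Complex.ofRealCLM.comp (∑ i, 2 • (innerSL ℝ (t i)).comp (ContinuousLinearMap.proj i))) t :=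
    Complex.ofRealCLM.hasFDerivAt.comp t hr
  unfold dz
  rw [hc.fderiv]
  simp only [ContinuousLinearMap.comp_apply, _root_.sum_apply,
    _root_.smul_apply, ContinuousLinearMap.proj_apply, Complex.ofRealCLM_apply]
  rw [Finset.sum_eq_single k, Finset.sum_eq_single k]
  · apply Complex.ext
    · simp
    · simp
      ring
  · intro b _ hb
    rw [Pi.single_eq_of_ne hb]
    simp
  · simp
  · intro b _ hb
    rw [Pi.single_eq_of_ne hb]
    simp
  · simp

/-- the cut-off -/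
def ct (ν : ℕ) (t : Cm q) : ℝ := Th ((∑ k, ‖t k‖ ^ 2) / 4 ^ ν)

lemma nsq_smooth : ContDiff ℝ ∞ (fun t : Cm q => ∑ k, ‖t k‖ ^ 2) :=
  ContDiff.sum fun k _ => (contDiff_apply ℝ ℂ k).norm_sq ℝ

lemma ct_smooth (ν : ℕ) : ContDiff ℝ ∞ (ct ν : Cm q → ℝ) :=
  Th_smooth.comp (nsq_smooth.div_const _)

lemma ct_nonneg (ν : ℕ) (t : Cm q) : 0 ≤ ct ν t := Th_nonneg _

lemma ct_le_one (ν : ℕ) (t : Cm q) : ct ν t ≤ 1 := Th_le_one _

lemma ct_mono (ν : ℕ) (t : Cm q) : ct ν t ≤ ct (ν + 1) t := by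
  unfold ct
  have h4 : (0 : ℝ) < 4 ^ ν := by positivity
  rcases le_or_gt 2 ((∑ k, ‖t k‖ ^ 2) / 4 ^ ν) with h | h
  · rw [Th_zero h]
    exact Th_nonneg _
  · rw [Th_one (s := (∑ k, ‖t k‖ ^ 2) / 4 ^ (ν + 1))]
    · exact Th_le_one _
    · rw [div_lt_iff₀ h4] at h
      rw [div_le_iff₀ (by positivity), pow_succ]
      linarith

lemma ct_zero {ν : ℕ} {t : Cm q} (h : (2 : ℝ) ^ (ν + 1) ≤ ‖t‖) : ct ν t = 0 := by
  refine Th_zero ?_
  have h4 : (0 : ℝ) < 4 ^ ν := by positivity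
  rw [le_div_iff₀ h4]
  have h1 : ‖t‖ ^ 2 ≤ ∑ k, ‖t k‖ ^ 2 := by
    rcases isEmpty_or_nonempty (Fin q) with h0 | h0
    · have : t = 0 := Subsingleton.elim _ _
      rw [this, norm_zero] at h
      have : (0 : ℝ) < 2 ^ (ν + 1) := by positivity
      linarith
    · obtain ⟨i, hi⟩ : ∃ i, ‖t‖ = ‖t i‖ := by
        obtain ⟨i, hi⟩ := Finite.exists_max fun i => ‖t i‖
        exact ⟨i, le_antisymm ((pi_norm_le_iff_of_nonneg (norm_nonneg _)).2 hi)
          (norm_le_pi_norm t i)⟩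
      rw [hi]
      exact Finset.single_le_sum (f := fun k => ‖t k‖ ^ 2) (fun k _ => by positivity)
        (Finset.mem_univ i)
  have h2 : ((2 : ℝ) ^ (ν + 1)) ^ 2 ≤ ‖t‖ ^ 2 := pow_le_pow_left₀ (by positivity) h 2
  have h3 : ((2 : ℝ) ^ (ν + 1)) ^ 2 = 4 * 4 ^ ν := by
    rw [← pow_mul, mul_comm (ν + 1) 2, pow_mul, pow_succ]
    norm_num
    ring
  nlinarith

lemma ct_lim (t : Cm q) : ∀ᶠ ν in atTop, ∀ᶠ t' in 𝓝 t, ct ν t' = 1 := by
  obtain ⟨N, hN⟩ := pow_unbounded_of_one_lt (∑ k, ‖t k‖ ^ 2) (show (1 : ℝ) < 4 by norm_num)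
  filter_upwards [eventually_ge_atTop N] with ν hν
  have h1 : ∑ k, ‖t k‖ ^ 2 < (4 : ℝ) ^ ν :=
    hN.trans_le (pow_le_pow_right₀ (by norm_num) hν)
  filter_upwards [(nsq_smooth (q := q)).continuous.continuousAt.eventually_lt_const h1] with t' ht'
  refine Th_one ?_
  rw [div_le_one (by positivity)]
  exact ht'.le

lemma ct_dz : ∃ D : ℝ, 0 ≤ D ∧ ∀ (ν : ℕ) (t : Cm q),
    ∑ k, ‖dz k (fun t => (ct ν t : ℂ)) t‖ ^ 2 ≤ D / 4 ^ ν := by
  obtain ⟨D, hD0, hD⟩ := Th_deriv_bd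
  refine ⟨D ^ 2 * 2, by positivity, fun ν t => ?_⟩
  have h4 : (0 : ℝ) < 4 ^ ν := by positivity
  have h1 : ∀ k, dz k (fun t => (ct ν t : ℂ)) t =
      ((deriv Th ((∑ k, ‖t k‖ ^ 2) / 4 ^ ν) / 4 ^ ν : ℝ) : ℂ) * conj (t k) := by
    intro k
    have e1 : HasDerivAt (fun s : ℝ => Th (s / 4 ^ ν))
        (deriv Th ((∑ k, ‖t k‖ ^ 2) / 4 ^ ν) / 4 ^ ν) (∑ k, ‖t k‖ ^ 2) := by
      have e2 : HasDerivAt Th (deriv Th ((∑ k, ‖t k‖ ^ 2) / 4 ^ ν)) ((∑ k, ‖t k‖ ^ 2) / 4 ^ ν) :=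
        (Th_smooth.differentiable (by norm_num) _).hasDerivAt
      have e3 : HasDerivAt (fun s : ℝ => s / 4 ^ ν) (1 / 4 ^ ν) (∑ k, ‖t k‖ ^ 2) :=
        (hasDerivAt_id _).div_const _
      have e4 := e2.comp (∑ k, ‖t k‖ ^ 2) e3
      rw [mul_one_div] at e4
      exact e4
    have e5 := Vale.Agent.P272.K.C2.dz_comp_real (j := k) e1
      ((nsq_smooth (q := q)).differentiable (by norm_num) t)
    rw [dz_nsq] at e5
    exact e5
  have h2 : ∑ k, ‖dz k (fun t => (ct ν t : ℂ)) t‖ ^ 2 =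
      (deriv Th ((∑ k, ‖t k‖ ^ 2) / 4 ^ ν)) ^ 2 * (((∑ k, ‖t k‖ ^ 2) / 4 ^ ν) / 4 ^ ν) := by
    simp only [h1]
    simp only [norm_mul, Complex.norm_real, Complex.norm_conj, mul_pow, Real.norm_eq_abs, sq_abs]
    rw [← Finset.mul_sum]
    field_simp
  rw [h2, mul_div_assoc', div_le_div_iff_of_pos_right h4]
  rcases lt_or_ge 2 ((∑ k, ‖t k‖ ^ 2) / 4 ^ ν) with h | h
  · rw [Th_deriv_zero h]
    have : 0 ≤ D ^ 2 * 2 := by positivity
    simpa using this
  · have h5 : (deriv Th ((∑ k, ‖t k‖ ^ 2) / 4 ^ ν)) ^ 2 ≤ D ^ 2 := by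
      rw [← sq_abs]
      exact pow_le_pow_left₀ (abs_nonneg _) (hD _) 2
    exact mul_le_mul h5 h (by positivity) (by positivity)

end

/-! ### properness -/

section
variable {n : ℕ} {X : Type} [TopologicalSpace X] [ChartedSpace (Cm n) X] {E : Type}
  [TopologicalSpace E] {p : E → X} {Γ : Type} [Group Γ] [MulAction Γ E]
  {w : Chart n X → Cm n → Matrix (Fin n) (Fin n) ℂ} {q : ℕ} {F : E → Cm q} {c : Γ → Cm q}

/-- **`F` is proper** when the periods are injective -/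
theorem isCompact_F [T2Space X] [CompactSpace X] [Nonempty E] (hG : IsGalois Γ p)
    (hP : Per p w F c) (hinj : ∀ g, c g = 0 → g = 1) {C : Set (Cm q)} (hC : IsCompact C) :
    IsCompact (F ⁻¹' C) := by
  have hFc := per_cont hG.cov hP
  obtain ⟨r, hr⟩ := hC.isBounded.subset_closedBall 0
  obtain ⟨C', hC', hcov⟩ := per_compact hG hP r
  refine hC'.of_isClosed_subset (hC.isClosed.preimage hFc) fun y hy => ?_
  have h1 := hr hy
  rw [mem_closedBall_zero_iff] at h1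
  obtain ⟨k, hk, hkC⟩ := hcov y h1
  rw [hinj k ((mem_ker hP).1 hk), one_smul] at hkC
  exact hkC

theorem isCompact_ball [T2Space X] [CompactSpace X] [Nonempty E] (hG : IsGalois Γ p)
    (hP : Per p w F c) (hinj : ∀ g, c g = 0 → g = 1) (t : Cm q) (r : ℝ) :
    IsCompact (F ⁻¹' closedBall t r) :=
  isCompact_F hG hP hinj (isCompact_closedBall _ _)

theorem sigmaCompact_E [T2Space X] [CompactSpace X] [Nonempty E] (hG : IsGalois Γ p)
    (hP : Per p w F c) (hinj : ∀ g, c g = 0 → g = 1) : SigmaCompactSpace E := by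
  refine ⟨⟨fun N => F ⁻¹' closedBall 0 N, fun N => isCompact_ball hG hP hinj 0 N, ?_⟩⟩
  refine eq_univ_of_forall fun y => ?_
  obtain ⟨N, hN⟩ := exists_nat_ge ‖F y‖
  exact mem_iUnion.2 ⟨N, mem_closedBall_zero_iff.2 hN⟩

/-- the derivative of `F` is bounded for the lifted metric -/
theorem bd_ch {e : Chart n X} {ε : OpenPartialHomeomorph E (Cm n)} (h : IsCh p e ε) {B : ℝ}
    (hB : HolB p w F B) {z : Cm n} (hz : z ∈ ε.target) (v : Cm n) :
    ‖fderiv ℂ (fun z => F (ε.symm z)) z v‖ ^ 2 ≤ B * (quad (w e z) v).re := by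
  obtain ⟨f, h1, h2, h3⟩ := hB (ε.symm z) e (h.at (ε.map_target hz))
  have h4 := h.ev_of (ε.map_target hz) h1
  rw [ε.right_inv hz] at h4
  rw [(ch_at h hz).2] at h3
  have h5 : fderiv ℂ (fun z => F (ε.symm z)) z = fderiv ℂ f z := h4.fderiv_eq
  rw [h5]
  refine (h3 v).trans (le_of_eq ?_)
  unfold quad
  congr 2
  refine Finset.sum_congr rfl fun j _ => Finset.sum_congr rfl fun k _ => ?_
  rw [mul_assoc]

variable [IsManifold 𝓘(ℂ, Cm n) ω X]

/-- **comparison with the metric**: `Σ ∂F_k ⊗ conj ∂F_k ≤ q B w` -/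
theorem JJ_le_w {e : Chart n X} {ε : OpenPartialHomeomorph E (Cm n)} (h : IsCh p e ε)
    (hw : IsKahler w) {B : ℝ} (hB : HolB p w F B) {z : Cm n} (hz : z ∈ ε.target) :
    (((q * max B 0 : ℝ) : ℂ) • w e z - JJ (fun z => F (ε.symm z)) z).PosSemidef := by
  obtain ⟨h1, h2⟩ := ch_at h hz
  have hpd := hw.posDef e _ h1
  rw [h2] at hpd
  have hd : DifferentiableAt ℂ (fun z => F (ε.symm z)) z :=
    (F_smooth ⟨B, hB⟩ h hz).differentiableAt
  refine posSemidef_of_quad ((hpd.isHermitian.smul (by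
    rw [isSelfAdjoint_iff, RCLike.star_def, Complex.conj_ofReal])).sub (JJ_herm _ _)) fun β => ?_
  rw [quad_subM, quad_smulR, quad_JJ hd, Complex.sub_re, Complex.re_ofReal_mul, Complex.ofReal_re,
    sub_nonneg]
  have h3 := bd_ch h hB hz β
  have h4 : 0 ≤ (quad (w e z) β).re := quad_nonneg hpd.posSemidef β
  have h5 : ∀ k, ‖fderiv ℂ (fun z => F (ε.symm z)) z β k‖ ^ 2 ≤ max B 0 * (quad (w e z) β).re := by
    intro k
    have h6 := pow_le_pow_left₀ (norm_nonneg _)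
      (norm_le_pi_norm (fderiv ℂ (fun z => F (ε.symm z)) z β) k) 2
    have h7 : B * (quad (w e z) β).re ≤ max B 0 * (quad (w e z) β).re :=
      mul_le_mul_of_nonneg_right (le_max_left _ _) h4
    linarith
  calc ∑ k, ‖fderiv ℂ (fun z => F (ε.symm z)) z β k‖ ^ 2
      ≤ ∑ _k : Fin q, max B 0 * (quad (w e z) β).re := Finset.sum_le_sum fun k _ => h5 k
    _ = q * max B 0 * (quad (w e z) β).re := by
        rw [Finset.sum_const, Finset.card_univ, Fintype.card_fin, nsmul_eq_mul, mul_assoc]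

/-- **the cut-off functions** for the lifted metric -/
def cutE [T2Space X] [CompactSpace X] [Nonempty E] [MeasurableSpace E] (hG : IsGalois Γ p)
    (hP : Per p w F c) (hinj : ∀ g, c g = 0 → g = 1) (hp : IsCoveringMap p) (hw : IsKahler w)
    (hB : ∃ B, HolB p w F B) (ψ : Cm q → ℝ) (hψ : ContDiff ℝ ∞ ψ) (μ : Measure E)
    (hμ : VolE p w μ) : (kE hp hw hB ψ hψ μ hμ).Cut where
  χ ν y := ct ν (F y)
  ε ν := (ct_dz (q := q)).choose / 4 ^ ν * (q * max hB.choose 0)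
  sm := by
    rintro ν ⟨⟨e, ε⟩, h⟩ z hz
    have h1 : ContDiffAt ℝ ∞ (fun z => F (ε.symm z)) z :=
      ((F_smooth hB h hz).contDiffAt (n := ∞)).restrict_scalars ℝ
    exact (ct_smooth ν).contDiffAt.comp z h1
  supp ν := by
    refine ⟨F ⁻¹' closedBall 0 (2 ^ (ν + 1)), isCompact_ball hG hP hinj 0 _, fun x hx => ?_⟩
    refine ct_zero ?_
    have h1 : ¬ (‖F x‖ ≤ 2 ^ (ν + 1)) := fun h => hx (mem_closedBall_zero_iff.2 h)
    exact (not_le.1 h1).le
  nonneg ν x := ct_nonneg _ _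
  mono ν x := ct_mono _ _
  le_one ν x := ct_le_one _ _
  lim x := by
    filter_upwards [ct_lim (F x)] with ν hν
    exact (per_cont hG.cov hP).continuousAt.eventually hν
  grad := by
    rintro ν ⟨⟨e, ε⟩, h⟩ z hz
    have hD0 := (ct_dz (q := q)).choose_spec.1
    have hD := (ct_dz (q := q)).choose_spec.2
    set D := (ct_dz (q := q)).choose with hDdef
    have hB' := hB.choose_spec
    set B := hB.choose with hBdef
    have hfan : AnalyticAt ℂ (fun z => F (ε.symm z)) z := F_smooth hB h hz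
    have hdf := hfan.differentiableAt
    have h1 := chain_psd (χ := ct ν) (f := fun z => F (ε.symm z)) (z := z)
      ((ct_smooth ν).differentiable (by norm_num) _) hdf (hD ν (F (ε.symm z)))
    have h2 : (((D / 4 ^ ν * (q * max B 0) : ℝ) : ℂ) • w e z -
        ((D / 4 ^ ν : ℝ) : ℂ) • JJ (fun z => F (ε.symm z)) z).PosSemidef := by
      have h5 := (JJ_le_w h hw hB' hz).smul
        (show (0 : ℂ) ≤ ((D / 4 ^ ν : ℝ) : ℂ) by
          rw [Complex.zero_le_real]; positivity)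
      rwa [smul_sub, smul_smul, ← Complex.ofReal_mul] at h5
    have h3 := h1.add h2
    have h4 : ∀ (A B C : Matrix (Fin n) (Fin n) ℂ), (A - B) + (C - A) = C - B := by
      intro A B C; abel
    rw [h4] at h3
    exact h3
  tend := by
    have h1 : Tendsto (fun ν : ℕ => (ct_dz (q := q)).choose / (4 : ℝ) ^ ν) atTop (𝓝 0) :=
      tendsto_const_nhds.div_atTop (tendsto_pow_atTop_atTop_of_one_lt (by norm_num))
    have h2 := h1.mul_const (q * max hB.choose 0)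
    rwa [zero_mul] at h2

end

end Vale.Agent.P284.H573.K9
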